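import Vale.Agent.P134.Stat.Main

/-!
P134: monotone Allen-Cahn solutions along a lattice of codimension three.
-/

open Filter

namespace Vale.Agent.Results.P134.LatticeFlatness

theorem result : ∀ (m : ℕ) (u : EuclideanSpace ℝ (Fin (m + 3)) → ℝ)
    (τ : Fin m → EuclideanSpace ℝ (Fin (m + 3))),
    ContDiff ℝ 2 u → (∀ x, |u x| ≤ 1) →
    (∀ x, Laplacian.laplacian u x = u x ^ 3 - u x) →
    (∀ x, 0 < fderiv ℝ u x (EuclideanSpace.single (Fin.last (m + 2)) 1)) →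
    LinearIndependent ℝ τ →
    (EuclideanSpace.single (Fin.last (m + 2)) (1 : ℝ) ∉ Submodule.span ℝ (Set.range τ) →
      (∀ R ε δ : ℝ, 0 < ε → 0 < δ → ∀ᶠ N : ℕ in atTop,
        (Set.ncard {k : Fin m → ℤ | (∀ i, |k i| ≤ (N : ℤ)) ∧
          ¬ ∃ ω : EuclideanSpace ℝ (Fin (m + 3)), ‖ω‖ = 1 ∧ ∃ h : ℝ → ℝ, ∀ x, ‖x‖ ≤ R →
            |u (x + ∑ i, (k i : ℝ) • τ i) - h (inner ℝ ω x)| ≤ ε} : ℝ)
          ≤ δ * (2 * (N : ℝ) + 1) ^ m) ∧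
      ((∀ R ε : ℝ, 0 < ε → ∃ c > 0, ∃ᶠ N : ℕ in atTop,
          c * (2 * (N : ℝ) + 1) ^ m ≤ (Set.ncard {k : Fin m → ℤ | (∀ i, |k i| ≤ (N : ℤ)) ∧
            ∀ x, ‖x‖ ≤ R → |u (x + ∑ i, (k i : ℝ) • τ i) - u x| ≤ ε} : ℝ)) →
        ∃ ω : EuclideanSpace ℝ (Fin (m + 3)), ‖ω‖ = 1 ∧
          ∃ h : ℝ → ℝ, ∀ x, u x = h (inner ℝ ω x))) ∧
    ((∀ i x, u (x + τ i) = u x) →
      ∃ ω : EuclideanSpace ℝ (Fin (m + 3)), ‖ω‖ = 1 ∧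
        ∃ h : ℝ → ℝ, ∀ x, u x = h (inner ℝ ω x)) :=
  fun _ _ _ hu hb heq hmono hτ =>
    ⟨fun he => Vale.Agent.P134.Periodic.lattice_main rfl hτ ⟨hu, hb, heq⟩ hmono he,
      Vale.Agent.P134.Periodic.lattice_periodic rfl hτ ⟨hu, hb, heq⟩ hmono⟩

end Vale.Agent.Results.P134.LatticeFlatness
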