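import Vale.Agent.P134.Sym.Main

/-!
P134: monotone Allen-Cahn solutions in four variables with a symmetry of infinite order.
-/

namespace Vale.Agent.Results.P134.SymmetryDimFour

theorem result : ∀ (u : EuclideanSpace ℝ (Fin 4) → ℝ)
    (g : EuclideanSpace ℝ (Fin 4) → EuclideanSpace ℝ (Fin 4)),
    ContDiff ℝ 2 u → (∀ x, |u x| ≤ 1) →
    (∀ x, Laplacian.laplacian u x = u x ^ 3 - u x) →
    (∀ x, 0 < fderiv ℝ u x (EuclideanSpace.single (Fin.last 3) 1)) →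
    Isometry g → (∀ x, u (g x) = u x) → (∀ k : ℕ, 0 < k → ∃ x, g^[k] x ≠ x) →
    ∃ ω : EuclideanSpace ℝ (Fin 4), ‖ω‖ = 1 ∧ ∃ h : ℝ → ℝ, ∀ x, u x = h (inner ℝ ω x) :=
  fun _ _ hu hb heq hmono hg hinv hinf =>
    Vale.Agent.P134.Periodic.symmetry_four ⟨hu, hb, heq⟩ hmono hg hinv hinf

end Vale.Agent.Results.P134.SymmetryDimFour
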